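import Vale.Agent.P141.H722.NbDoob

/-!
# P141, line (A): the number which caps the slot and all its shifted means

Letters of `H841.Lay`, `H876.WinS`, `H722.NbDoob`.

* `NN` : a number of the two cells of scale `j` of `x₀` and of `y`;
* `NN_cap0`, `NN_cap` : it caps the slot at the time `j` and the mean of the slot over every
  interval of length `2 ^ j` which contains `y`;
* `NN_count` : the number of the points `x₀` where it is large at some scale.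
-/

namespace Vale.Agent.P141.H722

open Finset Matrix
open Vale.Agent.P141.PL (iv ix hs mem_iv ix_ix card_iv)
open Vale.Agent.P141.H922 (ck iv_iv tsum_iv biU_sum)
open Vale.Agent.P141.H43 (avv nsq nsq_nonneg)
open Vale.Agent.P141.H841 (Lm Rm Rs Nn ix_bd ix_of nsq_smul Rm_succ Rm_top Rm_ix0 ixle hsix ix_two'
  ix_half st st_bd gl lay_fine nsq_sum_le sum_inv_sq nsq_avg_le ix_mid nsq_gl_le nsq_add_le)
open Vale.Agent.P141.H876 (wn En En_nonneg near_root tie_mem card_wn)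

noncomputable section

open scoped Classical

variable {ι : Type*} [Fintype ι] [DecidableEq ι]

omit [DecidableEq ι] in
/-- the operator norm is at most the Hilbert Schmidt norm -/
theorem nsq_mulVec_le [DecidableEq ι] (X : Matrix ι ι ℝ) (w : ι → ℝ) :
    nsq (X *ᵥ w) ≤ hsn X * nsq w := by
  rw [H841.nsq_eq, H841.nsq_eq]
  have e : hsn X = ∑ i, ∑ a, X i a ^ 2 := by
    unfold hsn
    rw [sum_comm]
    refine sum_congr rfl fun a _ => ?_
    rw [H841.nsq_eq]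
    refine sum_congr rfl fun i _ => ?_
    rw [mulVec_single_one, col_apply]
  rw [e, sum_mul]
  refine sum_le_sum fun i _ => ?_
  exact sum_mul_sq_le_sq_mul_sq univ (fun a => X i a) w

variable (Mx : ℕ → ℤ → Matrix ι ι ℝ) (o x1 : ℤ) (s : ℕ → ℤ → ℤ → ℝ) (n : ℕ)

/-- the squares of the matrices of scale `i + 1` tied to the cells of scale `j` -/
def MXw (j i : ℕ) (x0 y : ℤ) : ℝ :=
  ∑ R ∈ wn j (ix j x0) x1 (ix j y), ∑ m ∈ iv (j - (i + 1)) R, hsn (Mx (i + 1) m)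

/-- the number of the two cells of scale `j` -/
def NN (j : ℕ) (x0 y : ℤ) : ℝ :=
  Hs Mx o x1 s n j x0 y + Hs Mx o x1 s n j x0 (y + 2 ^ j) + Hs Mx o x1 s n j x0 (y - 2 ^ j) +
    ∑ i ∈ range j, 16 * ((j - i : ℕ) : ℝ) ^ 2 * ((4 : ℝ) ^ (j - i))⁻¹ * MXw Mx x1 j i x0 y

variable {Mx o x1 s n}

theorem Hs_nonneg (j : ℕ) (x0 p : ℤ) : 0 ≤ Hs Mx o x1 s n j x0 p := hsn_nonneg _

theorem MXw_nonneg (j i : ℕ) (x0 y : ℤ) : 0 ≤ MXw Mx x1 j i x0 y :=
  sum_nonneg fun _ _ => sum_nonneg fun _ _ => hsn_nonneg _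

theorem NN_nonneg (j : ℕ) (x0 y : ℤ) : 0 ≤ NN Mx o x1 s n j x0 y := by
  unfold NN
  have h1 := Hs_nonneg (Mx := Mx) (o := o) (x1 := x1) (s := s) (n := n) j x0 y
  have h2 := Hs_nonneg (Mx := Mx) (o := o) (x1 := x1) (s := s) (n := n) j x0 (y + 2 ^ j)
  have h3 := Hs_nonneg (Mx := Mx) (o := o) (x1 := x1) (s := s) (n := n) j x0 (y - 2 ^ j)
  have h4 : 0 ≤ ∑ i ∈ range j, 16 * ((j - i : ℕ) : ℝ) ^ 2 * ((4 : ℝ) ^ (j - i))⁻¹ *
      MXw Mx x1 j i x0 y := sum_nonneg fun i _ => mul_nonneg (by positivity) (MXw_nonneg _ _ _ _)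
  linarith

/-- a shift by a multiple of the cell -/
theorem ix_add (j : ℕ) (y c : ℤ) : ix j (y + c * 2 ^ j) = ix j y + c := by
  obtain ⟨a1, a2⟩ := ix_bd j y
  have h : (2 : ℤ) ^ j * (ix j y + c) = 2 ^ j * ix j y + c * 2 ^ j := by ring
  exact ix_of (by linarith) (by linarith)

theorem Hs_cell {j : ℕ} {x0 z0 y y' : ℤ} (h0 : ix j x0 = ix j z0) (h3 : ix j y = ix j y') :
    Hs Mx o x1 s n j x0 y = Hs Mx o x1 s n j z0 y' := by
  rw [Hs_eq, Hs_eq, Rm_ix0 h0, Rm_ix3 h3]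

/-- **`NN` is a number of the two cells.** -/
theorem NN_cell {j : ℕ} {x0 z0 y y' : ℤ} (h0 : ix j x0 = ix j z0) (h3 : ix j y = ix j y') :
    NN Mx o x1 s n j x0 y = NN Mx o x1 s n j z0 y' := by
  have e1 : ix j (y + 2 ^ j) = ix j (y' + 2 ^ j) := by
    have a := ix_add j y 1
    have b := ix_add j y' 1
    rw [one_mul] at a b
    rw [a, b, h3]
  have e2 : ix j (y - 2 ^ j) = ix j (y' - 2 ^ j) := by
    have a := ix_add j y (-1)
    have b := ix_add j y' (-1)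
    rw [neg_one_mul, ← sub_eq_add_neg] at a b
    rw [a, b, h3]
  unfold NN MXw
  rw [Hs_cell h0 h3, Hs_cell h0 e1, Hs_cell h0 e2, h0, h3]

/-- **The cap of the slot.** -/
theorem NN_cap0 (j : ℕ) (x0 y : ℤ) (w : ι → ℝ) :
    nsq (Rm Mx o x1 s n j x0 y *ᵥ w) ≤ NN Mx o x1 s n j x0 y * nsq w := by
  refine (nsq_mulVec_le _ _).trans (mul_le_mul_of_nonneg_right ?_ (nsq_nonneg _))
  unfold NN
  have h2 := Hs_nonneg (Mx := Mx) (o := o) (x1 := x1) (s := s) (n := n) j x0 (y + 2 ^ j)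
  have h3 := Hs_nonneg (Mx := Mx) (o := o) (x1 := x1) (s := s) (n := n) j x0 (y - 2 ^ j)
  have h4 : 0 ≤ ∑ i ∈ range j, 16 * ((j - i : ℕ) : ℝ) ^ 2 * ((4 : ℝ) ^ (j - i))⁻¹ *
      MXw Mx x1 j i x0 y := sum_nonneg fun i _ => mul_nonneg (by positivity) (MXw_nonneg _ _ _ _)
  have h5 : hsn (Rm Mx o x1 s n j x0 y) = Hs Mx o x1 s n j x0 y := rfl
  linarith

/-- the square of a fine layer at a point of the three cells -/
theorem Nn_MXw (ho : o = 1 ∨ o = -1) {j i : ℕ} (hi : i < j) (x0 y : ℤ) {p : ℤ}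
    (h1 : ix j y - 1 ≤ ix j p) (h2 : ix j p ≤ ix j y + 1) (w : ι → ℝ) :
    Nn Mx o x1 (i + 1) x0 p w ≤ MXw Mx x1 j i x0 y * nsq w := by
  unfold H841.Nn
  refine (nsq_mulVec_le _ _).trans (mul_le_mul_of_nonneg_right ?_ (nsq_nonneg _))
  unfold MXw
  rw [biU_sum]
  refine single_le_sum (f := fun m => hsn (Mx (i + 1) m)) (fun m _ => hsn_nonneg _) ?_
  rw [mem_biUnion]
  refine ⟨_, tie_mem (n := j) (T := ix j x0) (j := ix (i + 1) x0) ho (by omega) h1 h2 ?_,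
    mem_iv.2 rfl⟩
  rw [mem_iv, ix_ix, Nat.add_sub_cancel' (by omega)]

/-- the points of the shifted cell of `y` are in the three cells -/
theorem st_near (sh : ℤ) (j : ℕ) (y : ℤ) {p : ℤ} (h1 : st sh j y ≤ p) (h2 : p ≤ st sh j y + 2 ^ j) :
    ix j y - 1 ≤ ix j p ∧ ix j p ≤ ix j y + 1 := by
  obtain ⟨hy1, hy2⟩ := st_bd sh j y
  exact near_root (n := j) (k := j) le_rfl (by linarith) (by linarith)

/-- **The cap of the mean over the shifted cell.** -/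
theorem NN_cap (hs1 : ∀ k a b, |s k a b| ≤ 1) (ho : o = 1 ∨ o = -1) {j : ℕ} (hj : j ≤ n) (sh : ℤ)
    (x0 y : ℤ) (w : ι → ℝ) :
    nsq (Rs Mx o x1 s n sh j x0 (ix j (y - sh)) *ᵥ w) ≤ 2 * NN Mx o x1 s n j x0 y * nsq w := by
  set a := st sh j y with ha
  have hpos : (0 : ℤ) < 2 ^ j := by positivity
  set A : ℕ → ι → ℝ := fun i => ((2 : ℝ) ^ j)⁻¹ • ∑ p ∈ Ico a (a + 2 ^ j),
    hs (i + 1) p • gl Mx o x1 s (i + 1) x0 w (ix (i + 1) p) with hA
  have e1 : Rs Mx o x1 s n sh j x0 (ix j (y - sh)) *ᵥ w =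
      ∑ i ∈ range j, A i + ((2 : ℝ) ^ j)⁻¹ • ∑ p ∈ Ico a (a + 2 ^ j), Rm Mx o x1 s n j x0 p *ᵥ w := by
    rw [H841.Rs_vec, ← ha]
    have e2 : ∑ p ∈ Ico a (a + 2 ^ j), Rm Mx o x1 s n j x0 p *ᵥ w =
        ∑ i ∈ Ico j n, ∑ p ∈ Ico a (a + 2 ^ j),
          hs (i + 1) p • gl Mx o x1 s (i + 1) x0 w (ix (i + 1) p) := by
      simp only [H841.Rm_vec]
      rw [sum_comm]
    rw [e2, smul_sum, range_eq_Ico, range_eq_Ico, sum_Ico_consecutive _ (Nat.zero_le j) hj]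
  rw [e1]
  have f0 : nsq (((2 : ℝ) ^ j)⁻¹ • ∑ p ∈ Ico a (a + 2 ^ j), Rm Mx o x1 s n j x0 p *ᵥ w) ≤
      (Hs Mx o x1 s n j x0 y + Hs Mx o x1 s n j x0 (y + 2 ^ j) +
        Hs Mx o x1 s n j x0 (y - 2 ^ j)) * nsq w := by
    refine nsq_avg_le j a _ fun p hp => ?_
    rw [mem_Ico] at hp
    obtain ⟨c1, c2⟩ := st_near sh j y hp.1 hp.2.le
    refine (nsq_mulVec_le _ _).trans (mul_le_mul_of_nonneg_right ?_ (nsq_nonneg _))
    have g1 := Hs_nonneg (Mx := Mx) (o := o) (x1 := x1) (s := s) (n := n) j x0 y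
    have g2 := Hs_nonneg (Mx := Mx) (o := o) (x1 := x1) (s := s) (n := n) j x0 (y + 2 ^ j)
    have g3 := Hs_nonneg (Mx := Mx) (o := o) (x1 := x1) (s := s) (n := n) j x0 (y - 2 ^ j)
    have a1 := ix_add j y 1
    have a2 := ix_add j y (-1)
    rw [one_mul] at a1
    rw [neg_one_mul, ← sub_eq_add_neg] at a2
    rw [← Hs_eq]
    rcases (by omega : ix j p = ix j y ∨ ix j p = ix j y + 1 ∨ ix j p = ix j y + -1) with h | h | h
    · rw [Hs_cell rfl h]
      linarith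
    · rw [Hs_cell rfl (h.trans a1.symm)]
      linarith
    · rw [Hs_cell rfl (h.trans a2.symm)]
      linarith
  have f1 : nsq (∑ i ∈ range j, A i) ≤
      (∑ i ∈ range j, 8 * ((j - i : ℕ) : ℝ) ^ 2 * ((4 : ℝ) ^ (j - i))⁻¹ * MXw Mx x1 j i x0 y) *
        nsq w := by
    refine (nsq_sum_le (range j) (fun i => ((j - i : ℕ) : ℝ)) (fun i hi => ?_) A).trans ?_
    · rw [mem_range] at hi
      have : 0 < j - i := by omega
      exact_mod_cast this
    · have h1 : ∑ i ∈ range j, (((j - i : ℕ) : ℝ))⁻¹ ^ 2 ≤ 2 := by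
        have h2 := sum_inv_sq j
        rw [← sum_range_reflect] at h2
        refine le_trans (le_of_eq (sum_congr rfl fun i hi => ?_)) h2
        rw [mem_range] at hi
        have : ((j - i : ℕ) : ℝ) = ((j - 1 - i : ℕ) : ℝ) + 1 := by
          have : j - i = j - 1 - i + 1 := by omega
          rw [this]; push_cast; ring
        rw [this]
      have h3 : ∑ i ∈ range j, ((j - i : ℕ) : ℝ) ^ 2 * nsq (A i) ≤
          ∑ i ∈ range j, 4 * ((j - i : ℕ) : ℝ) ^ 2 * ((4 : ℝ) ^ (j - i))⁻¹ *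
            (MXw Mx x1 j i x0 y * nsq w) := by
        refine sum_le_sum fun i hi => ?_
        rw [mem_range] at hi
        have q1 := (nsq_gl_le (Mx := Mx) (o := o) (x1 := x1) hs1 (i + 1) x0 a w).trans
          (Nn_MXw ho hi x0 y (st_near sh j y le_rfl (by linarith)).1
            (st_near sh j y le_rfl (by linarith)).2 w)
        have q2 := (nsq_gl_le (Mx := Mx) (o := o) (x1 := x1) hs1 (i + 1) x0 (a + 2 ^ j) w).trans
          (Nn_MXw ho hi x0 y (st_near sh j y (by linarith) le_rfl).1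
            (st_near sh j y (by linarith) le_rfl).2 w)
        have q3 := (lay_fine hi a (gl Mx o x1 s (i + 1) x0 w)).trans
          (mul_le_mul_of_nonneg_left (add_le_add q1 q2) (by positivity))
        calc ((j - i : ℕ) : ℝ) ^ 2 * nsq (A i) ≤ ((j - i : ℕ) : ℝ) ^ 2 *
              (2 * ((4 : ℝ) ^ (j - i))⁻¹ * (MXw Mx x1 j i x0 y * nsq w +
                MXw Mx x1 j i x0 y * nsq w)) := mul_le_mul_of_nonneg_left q3 (by positivity)
          _ = _ := by ring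
      have h4 : 0 ≤ ∑ i ∈ range j, ((j - i : ℕ) : ℝ) ^ 2 * nsq (A i) :=
        sum_nonneg fun i _ => mul_nonneg (by positivity) (nsq_nonneg _)
      refine (mul_le_mul_of_nonneg_right h1 h4).trans ?_
      refine (mul_le_mul_of_nonneg_left h3 (by norm_num)).trans (le_of_eq ?_)
      rw [mul_sum, sum_mul]
      refine sum_congr rfl fun i _ => ?_
      ring
  refine (nsq_add_le _ _).trans ?_
  have f2 := add_le_add (mul_le_mul_of_nonneg_left f1 (by norm_num : (0 : ℝ) ≤ 2))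
    (mul_le_mul_of_nonneg_left f0 (by norm_num : (0 : ℝ) ≤ 2))
  refine f2.trans ?_
  have hw := nsq_nonneg w
  have f3 : ∑ i ∈ range j, 8 * ((j - i : ℕ) : ℝ) ^ 2 * ((4 : ℝ) ^ (j - i))⁻¹ * MXw Mx x1 j i x0 y ≤
      ∑ i ∈ range j, 16 * ((j - i : ℕ) : ℝ) ^ 2 * ((4 : ℝ) ^ (j - i))⁻¹ * MXw Mx x1 j i x0 y := by
    refine sum_le_sum fun i _ => ?_
    refine mul_le_mul_of_nonneg_right ?_ (MXw_nonneg _ _ _ _)
    have : 0 ≤ ((j - i : ℕ) : ℝ) ^ 2 * ((4 : ℝ) ^ (j - i))⁻¹ := by positivity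
    linarith
  unfold NN
  have f4 := mul_le_mul_of_nonneg_right f3 hw
  linarith

/-! ### The count -/

variable {T : ℤ}

/-- the windows of a finer scale cover every matrix at most five times -/
theorem MXw_sum {j i : ℕ} (hi : i < j) (hj : j ≤ n) (T y : ℤ) :
    ∑ x0 ∈ iv n T, MXw Mx x1 j i x0 y ≤
      5 * 2 ^ (j - (i + 1)) * ∑ a, En Mx n T x1 (ix n y) (i + 1) (Pi.single a 1) := by
  set F : ℤ → ℝ := fun R => ∑ m ∈ iv (j - (i + 1)) R, hsn (Mx (i + 1) m) with hF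
  have hF0 : ∀ R, 0 ≤ F R := fun R => sum_nonneg fun _ _ => hsn_nonneg _
  have eE : ∑ a, En Mx n T x1 (ix n y) (i + 1) (Pi.single a 1) =
      2 ^ (i + 1) * ∑ R ∈ wn n T x1 (ix n y), ∑ q ∈ iv (n - j) R, F q := by
    unfold H876.En
    rw [← mul_sum, sum_comm]
    congr 1
    refine sum_congr rfl fun R _ => ?_
    rw [sum_comm]
    have e1 : n - (i + 1) - (j - (i + 1)) = n - j := by omega
    have h := iv_iv (k := j - (i + 1)) (K := n - (i + 1)) (by omega) R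
      (fun m => hsn (Mx (i + 1) m))
    rw [e1] at h
    rw [hF, h]
    rfl
  rw [eE, ← iv_iv hj]
  have e2 : ∀ a ∈ iv (n - j) T, ∑ x0 ∈ iv j a, MXw Mx x1 j i x0 y =
      2 ^ j * ∑ R ∈ wn j a x1 (ix j y), F R := by
    intro a _
    have : ∀ x0 ∈ iv j a, MXw Mx x1 j i x0 y = ∑ R ∈ wn j a x1 (ix j y), F R := by
      intro x0 hx
      rw [mem_iv] at hx
      unfold MXw
      rw [hx]
    rw [sum_congr rfl this, sum_const, card_iv, nsmul_eq_mul]
    push_cast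
    ring
  rw [sum_congr rfl e2, ← mul_sum]
  have e3 : ∀ a, ∑ R ∈ wn j a x1 (ix j y), F R =
      ∑ e ∈ Icc (0 : ℤ) 4, F (-(a + ix j x1 + ix j y) - e) := by
    intro a
    refine sum_nbij' (fun R => -(a + ix j x1 + ix j y) - R) (fun e => -(a + ix j x1 + ix j y) - e)
      ?_ ?_ ?_ ?_ ?_
    · intro R hR
      unfold H876.wn at hR
      rw [mem_Icc] at hR ⊢
      constructor <;> linarith [hR.1, hR.2]
    · intro e he
      unfold H876.wn
      rw [mem_Icc] at he ⊢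
      constructor <;> linarith [he.1, he.2]
    · intro R _
      ring
    · intro e _
      ring
    · intro R _
      congr 1
      ring
  have e4 : ∀ e ∈ Icc (0 : ℤ) 4, ∑ a ∈ iv (n - j) T, F (-(a + ix j x1 + ix j y) - e) ≤
      ∑ R ∈ wn n T x1 (ix n y), ∑ q ∈ iv (n - j) R, F q := by
    intro e he
    rw [mem_Icc] at he
    rw [biU_sum]
    have e5 : ∑ a ∈ iv (n - j) T, F (-(a + ix j x1 + ix j y) - e) =
        ∑ q ∈ (iv (n - j) T).image (fun a => -(a + ix j x1 + ix j y) - e), F q := by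
      rw [sum_image]
      intro a _ b _ hab
      simpa using hab
    rw [e5]
    refine sum_le_sum_of_subset_of_nonneg (fun q hq => ?_) fun q _ _ => hF0 q
    obtain ⟨a, ha, rfl⟩ := mem_image.1 hq
    rw [mem_biUnion]
    refine ⟨_, ?_, mem_iv.2 rfl⟩
    rw [mem_iv] at ha
    have f1 : ix (n - j) (ix j x1) = ix n x1 := by rw [ix_ix, Nat.add_sub_cancel' hj]
    have f3 : ix (n - j) (ix j y) = ix n y := by rw [ix_ix, Nat.add_sub_cancel' hj]
    obtain ⟨a1, a2⟩ := ix_bd (n - j) a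
    obtain ⟨b1, b2⟩ := ix_bd (n - j) (ix j x1)
    obtain ⟨c1, c2⟩ := ix_bd (n - j) (ix j y)
    obtain ⟨d1, d2⟩ := ix_bd (n - j) (-(a + ix j x1 + ix j y) - e)
    rw [ha] at a1 a2
    rw [f1] at b1 b2
    rw [f3] at c1 c2
    have hp : (0 : ℤ) < 2 ^ (n - j) := by positivity
    set P : ℤ := 2 ^ (n - j)
    set q := ix (n - j) (-(a + ix j x1 + ix j y) - e)
    unfold H876.wn
    rw [mem_Icc]
    have k1 : q + (T + ix n x1 + ix n y) < 1 := by
      by_contra h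
      have h3 : P * 1 ≤ P * (q + (T + ix n x1 + ix n y)) :=
        mul_le_mul_of_nonneg_left (by omega) hp.le
      have h4 : P * (q + (T + ix n x1 + ix n y)) = P * q + P * T + P * ix n x1 + P * ix n y := by
        ring
      linarith
    have k2 : -5 < q + (T + ix n x1 + ix n y) := by
      by_contra h
      have h3 : P * (q + (T + ix n x1 + ix n y) + 5) ≤ 0 :=
        mul_nonpos_of_nonneg_of_nonpos hp.le (by omega)
      have h4 : P * (q + (T + ix n x1 + ix n y) + 5) =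
        P * q + P * T + P * ix n x1 + P * ix n y + 5 * P := by ring
      linarith
    constructor <;> linarith
  simp only [e3]
  rw [sum_comm]
  have e6 := sum_le_sum e4
  rw [sum_const, Int.card_Icc] at e6
  have h7 : ((4 : ℤ) + 1 - 0).toNat = 5 := rfl
  rw [h7, nsmul_eq_mul] at e6
  refine (mul_le_mul_of_nonneg_left e6 (by positivity)).trans (le_of_eq ?_)
  have e8 : (2 : ℝ) ^ j = 2 ^ (j - (i + 1)) * 2 ^ (i + 1) := by
    rw [← pow_add, Nat.sub_add_cancel (by omega)]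
  rw [e8]
  push_cast
  ring

theorem sum_sq_half (N : ℕ) :
    ∑ r ∈ range N, (r : ℝ) ^ 2 * ((2 : ℝ) ^ r)⁻¹ = 6 - 2 * ((N : ℝ) ^ 2 + 2 * N + 3) * ((2 : ℝ) ^ N)⁻¹ := by
  induction N with
  | zero => norm_num
  | succ N ih =>
    rw [sum_range_succ, ih, pow_succ]
    push_cast
    have : (2 : ℝ) ^ N ≠ 0 := by positivity
    field_simp
    ring

/-- the fine part, summed over the scales -/
theorem fine_sum (T y : ℤ) :
    ∑ x0 ∈ iv n T, ∑ j ∈ range (n + 1), ∑ i ∈ range j,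
      16 * ((j - i : ℕ) : ℝ) ^ 2 * ((4 : ℝ) ^ (j - i))⁻¹ * MXw Mx x1 j i x0 y ≤
      240 * ∑ i ∈ range n, ∑ a, En Mx n T x1 (ix n y) (i + 1) (Pi.single a 1) := by
  set EH : ℕ → ℝ := fun i => ∑ a, En Mx n T x1 (ix n y) (i + 1) (Pi.single a 1) with hEH
  have hEH0 : ∀ i, 0 ≤ EH i := fun i => sum_nonneg fun _ _ => En_nonneg _ _
  rw [sum_comm]
  have e1 : ∀ j ∈ range (n + 1), ∑ x0 ∈ iv n T, ∑ i ∈ range j,
      16 * ((j - i : ℕ) : ℝ) ^ 2 * ((4 : ℝ) ^ (j - i))⁻¹ * MXw Mx x1 j i x0 y ≤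
      ∑ i ∈ range n, if i < j then 40 * (((j - i : ℕ) : ℝ) ^ 2 * ((2 : ℝ) ^ (j - i))⁻¹) * EH i
        else 0 := by
    intro j hj
    rw [mem_range] at hj
    rw [sum_comm, ← sum_filter]
    have e2 : (range n).filter (fun i => i < j) = range j := by
      ext i
      rw [mem_filter, mem_range, mem_range]
      omega
    rw [e2]
    refine sum_le_sum fun i hi => ?_
    rw [mem_range] at hi
    rw [← mul_sum]
    have h1 := MXw_sum (Mx := Mx) (x1 := x1) hi (show j ≤ n by omega) T y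
    refine (mul_le_mul_of_nonneg_left h1 (by positivity)).trans (le_of_eq ?_)
    have e3 : (4 : ℝ) ^ (j - i) = 2 ^ (j - i) * 2 ^ (j - i) := by rw [← mul_pow]; norm_num
    have e4 : (2 : ℝ) ^ (j - i) = 2 * 2 ^ (j - (i + 1)) := by
      have : j - i = j - (i + 1) + 1 := by omega
      rw [this, pow_succ]
      ring
    change 16 * ((j - i : ℕ) : ℝ) ^ 2 * ((4 : ℝ) ^ (j - i))⁻¹ * (5 * 2 ^ (j - (i + 1)) * EH i) = _
    rw [e3, e4]
    have h5 : (2 : ℝ) ^ (j - (i + 1)) ≠ 0 := by positivity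
    field_simp
    ring
  refine (sum_le_sum e1).trans ?_
  rw [sum_comm, mul_sum]
  refine sum_le_sum fun i hi => ?_
  rw [mem_range] at hi
  rw [← sum_filter]
  have e2 : (range (n + 1)).filter (fun j => i < j) = Ico (i + 1) (n + 1) := by
    ext j
    rw [mem_filter, mem_range, mem_Ico]
    omega
  rw [e2, sum_Ico_eq_sum_range, ← sum_mul]
  refine mul_le_mul_of_nonneg_right ?_ (hEH0 i)
  have e3 : ∑ r ∈ range (n + 1 - (i + 1)), 40 * (((i + 1 + r - i : ℕ) : ℝ) ^ 2 *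
      ((2 : ℝ) ^ (i + 1 + r - i))⁻¹) = 40 * ∑ r ∈ range (n - i), ((r + 1 : ℕ) : ℝ) ^ 2 *
      ((2 : ℝ) ^ (r + 1))⁻¹ := by
    rw [mul_sum]
    have : n + 1 - (i + 1) = n - i := by omega
    rw [this]
    refine sum_congr rfl fun r _ => ?_
    have h1 : i + 1 + r - i = r + 1 := by omega
    rw [h1]
  rw [e3]
  have h6 := sum_sq_half (n - i + 1)
  rw [sum_range_succ'] at h6
  have h7 : ((0 : ℕ) : ℝ) ^ 2 * ((2 : ℝ) ^ 0)⁻¹ = 0 := by norm_num
  rw [h7, add_zero] at h6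
  rw [h6]
  have h8 : 0 ≤ 2 * (((n - i + 1 : ℕ) : ℝ) ^ 2 + 2 * ((n - i + 1 : ℕ) : ℝ) + 3) *
      ((2 : ℝ) ^ (n - i + 1))⁻¹ := by positivity
  linarith

/-- **The number of the points `x₀` where `NN` is large at some scale.** -/
theorem NN_count (hs1 : ∀ k a b, |s k a b| ≤ 1) (ho : o = 1 ∨ o = -1) (T y : ℤ) {lam : ℝ}
    (hlam : 0 ≤ lam) :
    (((iv n T).filter fun x0 => ∃ j ≤ n, lam ≤ NN Mx o x1 s n j x0 y).card : ℝ) * lam ≤
      2000 * ∑ i ∈ range n, ∑ a, En Mx n T x1 (ix n y) (i + 1) (Pi.single a 1) := by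
  set S : ℝ := ∑ i ∈ range n, ∑ a, En Mx n T x1 (ix n y) (i + 1) (Pi.single a 1) with hS
  have hS0 : 0 ≤ S := sum_nonneg fun _ _ => sum_nonneg fun _ _ => En_nonneg _ _
  set κ : ℝ := √(2 / 3 * lam) with hκ
  have hκ2 : κ ^ 2 = 2 / 3 * lam := Real.sq_sqrt (by positivity)
  set fine : ℕ → ℤ → ℝ := fun j x0 => ∑ i ∈ range j,
    16 * ((j - i : ℕ) : ℝ) ^ 2 * ((4 : ℝ) ^ (j - i))⁻¹ * MXw Mx x1 j i x0 y with hfine
  have hf0 : ∀ j x0, 0 ≤ fine j x0 := fun j x0 =>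
    sum_nonneg fun i _ => mul_nonneg (by positivity) (MXw_nonneg _ _ _ _)
  have h1 := prob_nb (Mx := Mx) (x1 := x1) (n := n) hs1 ho T y κ
  rw [hκ2] at h1
  have h2 : (((iv n T).filter fun x0 => ∃ j ≤ n, lam / 2 ≤ fine j x0).card : ℝ) * (lam / 2) ≤
      240 * S := by
    refine le_trans ?_ (fine_sum (Mx := Mx) (x1 := x1) (n := n) T y)
    rw [card_eq_sum_ones]
    push_cast
    rw [sum_mul, sum_filter]
    refine sum_le_sum fun x0 _ => ?_
    have hnn : 0 ≤ ∑ j ∈ range (n + 1), fine j x0 := sum_nonneg fun j _ => hf0 j x0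
    split_ifs with h
    · obtain ⟨j, hj, h3⟩ := h
      rw [one_mul]
      exact h3.trans (single_le_sum (f := fun j => fine j x0) (fun j _ => hf0 j x0)
        (mem_range.2 (by omega)))
    · exact hnn
  have hsub : ((iv n T).filter fun x0 => ∃ j ≤ n, lam ≤ NN Mx o x1 s n j x0 y) ⊆
      ((iv n T).filter fun x0 => ∃ j ≤ n, ∃ p, nbx y j p ∧
        2 / 3 * lam ≤ 4 * Hs Mx o x1 s n j x0 p) ∪
      ((iv n T).filter fun x0 => ∃ j ≤ n, lam / 2 ≤ fine j x0) := by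
    intro x0 hx
    rw [mem_filter] at hx
    obtain ⟨hx0, j, hj, h3⟩ := hx
    rw [mem_union, mem_filter, mem_filter]
    by_cases h4 : lam / 2 ≤ fine j x0
    · exact Or.inr ⟨hx0, j, hj, h4⟩
    · left
      refine ⟨hx0, j, hj, ?_⟩
      have h5 : NN Mx o x1 s n j x0 y = Hs Mx o x1 s n j x0 y + Hs Mx o x1 s n j x0 (y + 2 ^ j) +
        Hs Mx o x1 s n j x0 (y - 2 ^ j) + fine j x0 := rfl
      rw [h5] at h3
      by_cases a1 : 2 / 3 * lam ≤ 4 * Hs Mx o x1 s n j x0 y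
      · exact ⟨y, Or.inl rfl, a1⟩
      by_cases a2 : 2 / 3 * lam ≤ 4 * Hs Mx o x1 s n j x0 (y + 2 ^ j)
      · exact ⟨_, Or.inr (Or.inl rfl), a2⟩
      by_cases a3 : 2 / 3 * lam ≤ 4 * Hs Mx o x1 s n j x0 (y - 2 ^ j)
      · exact ⟨_, Or.inr (Or.inr rfl), a3⟩
      exfalso
      linarith
  have h6 : (((iv n T).filter fun x0 => ∃ j ≤ n, lam ≤ NN Mx o x1 s n j x0 y).card : ℝ) ≤
      (((iv n T).filter fun x0 => ∃ j ≤ n, ∃ p, nbx y j p ∧
        2 / 3 * lam ≤ 4 * Hs Mx o x1 s n j x0 p).card : ℝ) +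
      (((iv n T).filter fun x0 => ∃ j ≤ n, lam / 2 ≤ fine j x0).card : ℝ) := by
    exact_mod_cast (card_le_card hsub).trans (card_union_le _ _)
  have h7 := mul_le_mul_of_nonneg_right h6 hlam
  rw [← hS] at h1
  linarith

/-- **The count by the top traces.** -/
theorem NN_count_tr (hs1 : ∀ k a b, |s k a b| ≤ 1) (ho : o = 1 ∨ o = -1) (T y : ℤ) {lam : ℝ}
    (hlam : 0 ≤ lam) {l : ℝ} {G K : ℕ → ℤ → Matrix ι ι ℝ} (h : H420.Tr l n G K)
    (hM : ∀ k m a, Mx k m *ᵥ a = H483.mT l K k m a) :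
    (((iv n T).filter fun x0 => ∃ j ≤ n, lam ≤ NN Mx o x1 s n j x0 y).card : ℝ) * lam ≤
      2000 * (2 ^ n * ((2 * l)⁻¹ * ∑ R ∈ wn n T x1 (ix n y), (G n R).trace)) := by
  refine (NN_count (Mx := Mx) (x1 := x1) hs1 ho T y hlam).trans ?_
  refine mul_le_mul_of_nonneg_left ?_ (by norm_num)
  rw [sum_comm]
  refine (sum_le_sum fun a _ => H876.En_sumQ (T := T) (x1 := x1) (M3 := ix n y) h hM
    (Pi.single a 1)).trans (le_of_eq ?_)
  rw [← mul_sum, ← mul_sum, sum_comm]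
  congr 2
  refine sum_congr rfl fun R _ => ?_
  rw [Matrix.trace]
  refine sum_congr rfl fun a _ => ?_
  rw [mulVec_single_one, single_dotProduct, one_mul, col_apply, diag_apply]

end

end Vale.Agent.P141.H722
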