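import Vale.Agent.P141.H841.ShiftR
import Vale.Agent.P141.H43.MidR

/-!
# P141, line (A): the maximal inequality of the slot over the neighbour cells

Letters of `H841.Lay`, `H876.WinS`.

* `bad_le` : the weak type inequality for a tree process with deterministic resets;
* `Hs` : the squared Hilbert Schmidt norm of the slot, `nbx` : a point, or one of the two points at
  distance one cell;
* `prob_nb` : the number of the points `x₀` with a large slot at some scale on the cell of `y` or on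
  one of the two neighbour cells.
-/

namespace Vale.Agent.P141.H722

open Finset Matrix
open Vale.Agent.P141.PL (iv ix hs mem_iv ix_ix card_iv)
open Vale.Agent.P141.H922 (ck iv_iv tsum_iv biU_sum)
open Vale.Agent.P141.H43 (nsq nsq_nonneg)
open Vale.Agent.P141.H841 (Lm Rm ix_bd ix_of nsq_smul Rm_succ Rm_top Rm_ix0 ixle hsix ix_two' ix_half)
open Vale.Agent.P141.H876 (wn En En_nonneg near_root tie_mem)

noncomputable section

open scoped Classical

/-! ### Tree processes with resets -/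

section abstract

variable {V : Type*} [AddCommGroup V] {q : V → ℝ} {n : ℕ} {P B Y : ℕ → ℤ → V}

theorem tsum_nn {f : ℕ → ℤ → ℝ} (hf : ∀ k m, 0 ≤ f k m) : ∀ k m, 0 ≤ H420.tsum f k m := by
  intro k
  induction k with
  | zero => intro m; exact le_rfl
  | succ k ih =>
    intro m
    have h1 := ih (2 * m)
    have h2 := ih (2 * m + 1)
    have h3 := hf (k + 1) m
    rw [H420.tsum]
    linarith

/-- **The weak type inequality.** -/
theorem bad_le (hq : ∀ x, 0 ≤ q x) (hpar : ∀ x y, q (x + y) + q (x - y) = 2 * q x + 2 * q y)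
    (hl : ∀ j < n, ∀ m, P j (2 * m) = B (j + 1) m + Y (j + 1) m)
    (hr : ∀ j < n, ∀ m, P j (2 * m + 1) = B (j + 1) m - Y (j + 1) m)
    (hB : ∀ j < n, ∀ m, q (B (j + 1) m) ≤ q (P (j + 1) m)) {lam : ℝ} (hlam : 0 ≤ lam) :
    ∀ k ≤ n, ∀ m, (∑ x ∈ iv k m, if ∃ j ≤ k, lam ≤ q (P j (ix j x)) then lam else 0) ≤
      2 ^ k * (q (P k m) + H420.tsum (fun j i => q (Y j i)) k m) := by
  intro k
  induction k with
  | zero =>
    intro _ m
    have e : iv 0 m = {m} := by
      ext y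
      rw [mem_iv, mem_singleton]
      unfold ix
      simp
    rw [e, sum_singleton, pow_zero, one_mul]
    have h0 : H420.tsum (fun j i => q (Y j i)) 0 m = 0 := rfl
    rw [h0, add_zero]
    split_ifs with h
    · obtain ⟨j, hj, h1⟩ := h
      obtain rfl : j = 0 := by omega
      have e1 : ix 0 m = m := by unfold ix; simp
      rwa [e1] at h1
    · exact hq _
  | succ k ih =>
    intro hk m
    have hts := tsum_nn (f := fun j i => q (Y j i)) (fun _ _ => hq _) (k + 1) m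
    by_cases hb : lam ≤ q (P (k + 1) m)
    · have h1 : (∑ x ∈ iv (k + 1) m, if ∃ j ≤ k + 1, lam ≤ q (P j (ix j x)) then lam else 0) ≤
          ∑ _x ∈ iv (k + 1) m, lam := by
        refine sum_le_sum fun x _ => ?_
        split_ifs
        · exact le_rfl
        · exact hlam
      rw [sum_const, card_iv, nsmul_eq_mul] at h1
      refine h1.trans ?_
      push_cast
      refine mul_le_mul_of_nonneg_left ?_ (by positivity)
      linarith
    · have e1 : ∀ x ∈ iv (k + 1) m, (if ∃ j ≤ k + 1, lam ≤ q (P j (ix j x)) then lam else 0) =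
          if ∃ j ≤ k, lam ≤ q (P j (ix j x)) then lam else 0 := by
        intro x hx
        rw [mem_iv] at hx
        have : (∃ j ≤ k + 1, lam ≤ q (P j (ix j x))) ↔ ∃ j ≤ k, lam ≤ q (P j (ix j x)) := by
          constructor
          · rintro ⟨j, hj, h⟩
            rcases Nat.lt_or_ge j (k + 1) with h2 | h2
            · exact ⟨j, by omega, h⟩
            · obtain rfl : j = k + 1 := by omega
              rw [hx] at h
              exact absurd h hb
          · rintro ⟨j, hj, h⟩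
            exact ⟨j, by omega, h⟩
        simp only [this]
      rw [sum_congr rfl e1, H43.sum_iv_half]
      have i1 := ih (by omega) (2 * m)
      have i2 := ih (by omega) (2 * m + 1)
      rw [hl k (by omega) m] at i1
      rw [hr k (by omega) m] at i2
      have h3 := hpar (B (k + 1) m) (Y (k + 1) m)
      have h4 := hB k (by omega) m
      refine (add_le_add i1 i2).trans ?_
      rw [← mul_add, pow_succ, mul_assoc]
      refine mul_le_mul_of_nonneg_left ?_ (by positivity)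
      rw [H420.tsum]
      linarith

end abstract

/-! ### The squared Hilbert Schmidt norm -/

section slot

variable {ι : Type*} [Fintype ι] [DecidableEq ι]

/-- the squared Hilbert Schmidt norm -/
def hsn (X : Matrix ι ι ℝ) : ℝ := ∑ a, nsq (X *ᵥ Pi.single a 1)

theorem hsn_nonneg (X : Matrix ι ι ℝ) : 0 ≤ hsn X := sum_nonneg fun _ _ => nsq_nonneg _

theorem hsn_zero : hsn (0 : Matrix ι ι ℝ) = 0 := by
  unfold hsn
  simp only [zero_mulVec, H841.nsq_zero, sum_const_zero]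

theorem hsn_par (X Z : Matrix ι ι ℝ) : hsn (X + Z) + hsn (X - Z) = 2 * hsn X + 2 * hsn Z := by
  unfold hsn
  rw [← sum_add_distrib, mul_sum, mul_sum, ← sum_add_distrib]
  refine sum_congr rfl fun a _ => ?_
  rw [add_mulVec, sub_mulVec, H43.nsq_add, H43.nsq_sub]
  ring

theorem hsn_add_le (X Z : Matrix ι ι ℝ) : hsn (X + Z) ≤ 2 * hsn X + 2 * hsn Z := by
  have h1 := hsn_par X Z
  have h2 := hsn_nonneg (X - Z)
  linarith

theorem hsn_sub_le (X Z : Matrix ι ι ℝ) : hsn (X - Z) ≤ 2 * hsn X + 2 * hsn Z := by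
  have h1 := hsn_par X Z
  have h2 := hsn_nonneg (X + Z)
  linarith

theorem hsn_smul (c : ℝ) (X : Matrix ι ι ℝ) : hsn (c • X) = c ^ 2 * hsn X := by
  unfold hsn
  rw [mul_sum]
  refine sum_congr rfl fun a _ => ?_
  rw [smul_mulVec, nsq_smul]

variable (Mx : ℕ → ℤ → Matrix ι ι ℝ) (o x1 : ℤ) (s : ℕ → ℤ → ℤ → ℝ) (n : ℕ)

/-- the squared Hilbert Schmidt norm of the slot -/
def Hs (j : ℕ) (x0 p : ℤ) : ℝ := ∑ a, nsq (Rm Mx o x1 s n j x0 p *ᵥ Pi.single a 1)

theorem Hs_eq (j : ℕ) (x0 p : ℤ) : Hs Mx o x1 s n j x0 p = hsn (Rm Mx o x1 s n j x0 p) := rfl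

/-- the point `y`, or the point at distance one cell of scale `j` -/
def nbx (y : ℤ) (j : ℕ) (p : ℤ) : Prop := p = y ∨ p = y + 2 ^ j ∨ p = y - 2 ^ j

/-- the layer without the sign of `x₀` -/
def Yy (k : ℕ) (m p : ℤ) : Matrix ι ι ℝ :=
  (s k m (ix k p) * hs k p) • Mx k (ck o x1 p k - m)

variable {Mx o x1 s n}

omit [Fintype ι] [DecidableEq ι] in
theorem Lm_Yy (k : ℕ) (x0 p : ℤ) : Lm Mx o x1 s k x0 p = hs k x0 • Yy Mx o x1 s k (ix k x0) p := by
  unfold Lm Yy
  rw [smul_smul]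
  congr 1
  ring

theorem hsn_Yy (hs1 : ∀ k a b, |s k a b| ≤ 1) (k : ℕ) (m p : ℤ) :
    hsn (Yy Mx o x1 s k m p) ≤ hsn (Mx k (ck o x1 p k - m)) := by
  unfold Yy
  rw [hsn_smul]
  have h1 : (s k m (ix k p) * hs k p) ^ 2 ≤ 1 := by
    rw [mul_pow, sq (hs k p), PL.hs_mul_self, mul_one, ← sq_abs]
    exact pow_le_one₀ (abs_nonneg _) (hs1 _ _ _)
  calc _ ≤ 1 * _ := mul_le_mul_of_nonneg_right h1 (hsn_nonneg _)
    _ = _ := one_mul _

omit [Fintype ι] [DecidableEq ι] in
/-- the slot depends on the cell of the point only -/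
theorem Rm_ix3 {j : ℕ} {p p' : ℤ} (h : ix j p = ix j p') (x0 : ℤ) :
    Rm Mx o x1 s n j x0 p = Rm Mx o x1 s n j x0 p' := by
  unfold H841.Rm
  refine sum_congr rfl fun i hi => ?_
  have hi' := (mem_Ico.1 hi).1
  have a0 := ixle hi' h
  have b0 := ixle (Nat.le_succ i) a0
  unfold H841.Lm H922.ck
  rw [b0, hsix a0]

theorem ix_evn (j : ℕ) (m : ℤ) : ix (j + 1) (2 ^ j * (2 * m)) = m := by
  rw [show (2 : ℤ) ^ j * (2 * m) = 2 ^ (j + 1) * m by ring, ix_two']

theorem ix_od (j : ℕ) (m : ℤ) : ix (j + 1) (2 ^ j * (2 * m + 1)) = m := by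
  rw [ix_half, ix_two']
  omega

theorem hs_evn (j : ℕ) (m : ℤ) : hs (j + 1) (2 ^ j * (2 * m)) = 1 := by
  unfold PL.hs
  rw [Nat.add_sub_cancel, ix_two', if_pos (by omega)]

theorem hs_od (j : ℕ) (m : ℤ) : hs (j + 1) (2 ^ j * (2 * m + 1)) = -1 := by
  unfold PL.hs
  rw [Nat.add_sub_cancel, ix_two', if_neg (by omega)]

omit [Fintype ι] [DecidableEq ι] in
theorem Rm_left {j : ℕ} (hj : j < n) (m p : ℤ) :
    Rm Mx o x1 s n j (2 ^ j * (2 * m)) p =
      Rm Mx o x1 s n (j + 1) (2 ^ (j + 1) * m) p + Yy Mx o x1 s (j + 1) m p := by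
  rw [Rm_succ hj, Lm_Yy, hs_evn, one_smul, ix_evn, add_comm,
    Rm_ix0 (x0 := 2 ^ j * (2 * m)) (z0 := 2 ^ (j + 1) * m) (by rw [ix_evn, ix_two']) p]

omit [Fintype ι] [DecidableEq ι] in
theorem Rm_right {j : ℕ} (hj : j < n) (m p : ℤ) :
    Rm Mx o x1 s n j (2 ^ j * (2 * m + 1)) p =
      Rm Mx o x1 s n (j + 1) (2 ^ (j + 1) * m) p - Yy Mx o x1 s (j + 1) m p := by
  rw [Rm_succ hj, Lm_Yy, hs_od, ix_od, neg_smul, one_smul, sub_eq_add_neg, add_comm,
    Rm_ix0 (x0 := 2 ^ j * (2 * m + 1)) (z0 := 2 ^ (j + 1) * m) (by rw [ix_od, ix_two']) p]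

/-- the cell of scale `j + 1` of the neighbour of scale `j` -/
theorem nb_cell (j : ℕ) (y : ℤ) {d : ℤ} (hd : d = 1 ∨ d = -1) :
    ix (j + 1) (y + d * 2 ^ j) = ix (j + 1) y ∨
      ix (j + 1) (y + d * 2 ^ j) = ix (j + 1) (y + d * 2 ^ (j + 1)) := by
  obtain ⟨a1, a2⟩ := ix_bd j y
  have e0 : ∀ c : ℤ, ix j (y + c * 2 ^ j) = ix j y + c := fun c => by
    refine ix_of ?_ ?_
    · have : (2 : ℤ) ^ j * (ix j y + c) = 2 ^ j * ix j y + c * 2 ^ j := by ring
      linarith
    · have : (2 : ℤ) ^ j * (ix j y + c) = 2 ^ j * ix j y + c * 2 ^ j := by ring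
      linarith
  have e1 : y + d * 2 ^ (j + 1) = y + (2 * d) * 2 ^ j := by rw [pow_succ]; ring
  rw [e1, ix_half, ix_half, ix_half, e0, e0]
  rcases hd with rfl | rfl <;> omega

/-! ### Energies -/

variable {T M3 : ℤ}

/-- the energy of a layer in the window -/
theorem lay_win (ho : o = 1 ∨ o = -1) {i : ℕ} (hi : i ≤ n) {p : ℤ}
    (h1 : M3 - 1 ≤ ix n p) (h2 : ix n p ≤ M3 + 1) :
    2 ^ i * ∑ m ∈ iv (n - i) T, hsn (Mx i (ck o x1 p i - m)) ≤
      ∑ a, En Mx n T x1 M3 i (Pi.single a 1) := by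
  unfold hsn
  rw [sum_comm, mul_sum]
  refine sum_le_sum fun a _ => ?_
  unfold H876.En
  refine mul_le_mul_of_nonneg_left ?_ (by positivity)
  set f : ℤ → ℝ := fun m => nsq (Mx i m *ᵥ Pi.single a 1) with hf
  rw [biU_sum]
  have e3 : ∑ j ∈ iv (n - i) T, f (ck o x1 p i - j) =
      ∑ m ∈ (iv (n - i) T).image (fun j => ck o x1 p i - j), f m := by
    rw [sum_image]
    intro a _ b _ hab
    simpa using hab
  change ∑ j ∈ iv (n - i) T, f (ck o x1 p i - j) ≤ _
  rw [e3]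
  refine sum_le_sum_of_subset_of_nonneg (fun m hm => ?_) fun m _ _ => nsq_nonneg _
  obtain ⟨j, hj, rfl⟩ := mem_image.1 hm
  rw [mem_biUnion]
  exact ⟨_, tie_mem ho hi h1 h2 hj, mem_iv.2 rfl⟩

theorem sum_shift (f : ℕ → ℝ) : ∑ i ∈ Icc 1 n, f i = ∑ i ∈ range n, f (i + 1) := by
  rw [range_eq_Ico, sum_Ico_add' f 0 n 1]
  rfl

/-- **The maximal inequality over the three cells.** -/
theorem prob_nb (hs1 : ∀ k a b, |s k a b| ≤ 1) (ho : o = 1 ∨ o = -1) (T y : ℤ) (κ : ℝ) :
    (((iv n T).filter fun x0 => ∃ j ≤ n, ∃ p, nbx y j p ∧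
        κ ^ 2 ≤ 4 * Hs Mx o x1 s n j x0 p).card : ℝ) * κ ^ 2 ≤
      144 * ∑ i ∈ range n, ∑ a, En Mx n T x1 (ix n y) (i + 1) (Pi.single a 1) := by
  set EH : ℕ → ℝ := fun i => ∑ a, En Mx n T x1 (ix n y) i (Pi.single a 1) with hEH
  have hEH0 : ∀ i, 0 ≤ EH i := fun i => sum_nonneg fun _ _ => En_nonneg _ _
  set lam : ℝ := κ ^ 2 / 16 with hlam
  have hlam0 : 0 ≤ lam := by positivity
  -- the two processes
  set P0 : ℕ → ℤ → Matrix ι ι ℝ := fun j m => Rm Mx o x1 s n j (2 ^ j * m) y with hP0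
  have main0 := bad_le (q := hsn) (n := n) (P := P0) (B := P0) (Y := fun k m => Yy Mx o x1 s k m y)
    hsn_nonneg hsn_par (fun j hj m => Rm_left hj m y) (fun j hj m => Rm_right hj m y)
    (fun j _ m => le_rfl) hlam0 n le_rfl T
  have hy1 : ix n y - 1 ≤ ix n y := by omega
  have hy2 : ix n y ≤ ix n y + 1 := by omega
  have en0 : 2 ^ n * (hsn (P0 n T) + H420.tsum (fun j i => hsn (Yy Mx o x1 s j i y)) n T) ≤
      ∑ i ∈ range n, EH (i + 1) := by
    have e1 : P0 n T = 0 := Rm_top _ _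
    rw [e1, hsn_zero, zero_add, tsum_iv, ← sum_shift EH]
    refine sum_le_sum fun i hi => ?_
    have hi' := (mem_Icc.1 hi).2
    refine le_trans (mul_le_mul_of_nonneg_left (sum_le_sum fun m _ => hsn_Yy hs1 i m y)
      (by positivity)) ?_
    exact lay_win ho hi' hy1 hy2
  have mainD : ∀ d : ℤ, (d = 1 ∨ d = -1) →
      (∑ x ∈ iv n T, if ∃ j ≤ n, lam ≤ hsn (Rm Mx o x1 s n j (2 ^ j * ix j x) (y + d * 2 ^ j) -
        Rm Mx o x1 s n j (2 ^ j * ix j x) y) then lam else 0) ≤ 4 * ∑ i ∈ range n, EH (i + 1) := by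
    intro d hd
    set P : ℕ → ℤ → Matrix ι ι ℝ := fun j m =>
      Rm Mx o x1 s n j (2 ^ j * m) (y + d * 2 ^ j) - Rm Mx o x1 s n j (2 ^ j * m) y with hP
    set B : ℕ → ℤ → Matrix ι ι ℝ := fun j m =>
      Rm Mx o x1 s n j (2 ^ j * m) (y + d * 2 ^ (j - 1)) - Rm Mx o x1 s n j (2 ^ j * m) y with hB
    set Y : ℕ → ℤ → Matrix ι ι ℝ := fun j m =>
      Yy Mx o x1 s j m (y + d * 2 ^ (j - 1)) - Yy Mx o x1 s j m y with hY
    have h1 := bad_le (q := hsn) (n := n) (P := P) (B := B) (Y := Y) hsn_nonneg hsn_par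
      (fun j hj m => by
        simp only [hP, hB, hY, Nat.add_sub_cancel]
        rw [Rm_left hj, Rm_left hj]
        abel)
      (fun j hj m => by
        simp only [hP, hB, hY, Nat.add_sub_cancel]
        rw [Rm_right hj, Rm_right hj]
        abel)
      (fun j hj m => by
        simp only [hP, hB, Nat.add_sub_cancel]
        rcases nb_cell j y hd with h | h
        · rw [Rm_ix3 h, sub_self, hsn_zero]
          exact hsn_nonneg _
        · rw [Rm_ix3 h])
      hlam0 n le_rfl T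
    refine h1.trans ?_
    have e1 : P n T = 0 := by
      simp only [hP]
      rw [Rm_top, Rm_top, sub_self]
    rw [e1, hsn_zero, zero_add, tsum_iv, mul_sum, ← sum_shift fun i => 4 * EH i]
    refine sum_le_sum fun i hi => ?_
    obtain ⟨hi1, hi'⟩ := mem_Icc.1 hi
    have hpn := near_root (n := n) (k := i - 1) (by omega) (p := y + d * 2 ^ (i - 1)) (y := y)
      (by
        have : (0 : ℤ) < 2 ^ (i - 1) := by positivity
        rcases hd with rfl | rfl <;> linarith)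
      (by
        have : (0 : ℤ) < 2 ^ (i - 1) := by positivity
        rcases hd with rfl | rfl <;> linarith)
    have h2 : ∀ m ∈ iv (n - i) T, hsn (Y i m) ≤
        2 * hsn (Mx i (ck o x1 (y + d * 2 ^ (i - 1)) i - m)) + 2 * hsn (Mx i (ck o x1 y i - m)) := by
      intro m _
      refine (hsn_sub_le _ _).trans ?_
      have h3 := hsn_Yy (Mx := Mx) (o := o) (x1 := x1) hs1 i m (y + d * 2 ^ (i - 1))
      have h4 := hsn_Yy (Mx := Mx) (o := o) (x1 := x1) hs1 i m y
      linarith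
    refine (mul_le_mul_of_nonneg_left (sum_le_sum h2) (by positivity)).trans ?_
    rw [sum_add_distrib, ← mul_sum, ← mul_sum]
    have h5 := lay_win (Mx := Mx) (x1 := x1) (T := T) ho hi' hpn.1 hpn.2
    have h6 := lay_win (Mx := Mx) (x1 := x1) (T := T) ho hi' hy1 hy2
    have h7 : (2 : ℝ) ^ i * (2 * ∑ m ∈ iv (n - i) T, hsn (Mx i (ck o x1 (y + d * 2 ^ (i - 1)) i - m)) +
        2 * ∑ m ∈ iv (n - i) T, hsn (Mx i (ck o x1 y i - m))) =
        2 * (2 ^ i * ∑ m ∈ iv (n - i) T, hsn (Mx i (ck o x1 (y + d * 2 ^ (i - 1)) i - m))) +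
        2 * (2 ^ i * ∑ m ∈ iv (n - i) T, hsn (Mx i (ck o x1 y i - m))) := by ring
    rw [h7]
    simp only [hEH]
    linarith
  have m1 := mainD 1 (Or.inl rfl)
  have m2 := mainD (-1) (Or.inr rfl)
  have m0 := main0.trans en0
  have key : (((iv n T).filter fun x0 => ∃ j ≤ n, ∃ p, nbx y j p ∧
        κ ^ 2 ≤ 4 * Hs Mx o x1 s n j x0 p).card : ℝ) * lam ≤
      (∑ x ∈ iv n T, if ∃ j ≤ n, lam ≤ hsn (P0 j (ix j x)) then lam else 0) +
      ((∑ x ∈ iv n T, if ∃ j ≤ n, lam ≤ hsn (Rm Mx o x1 s n j (2 ^ j * ix j x) (y + 1 * 2 ^ j) -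
        Rm Mx o x1 s n j (2 ^ j * ix j x) y) then lam else 0) +
      ∑ x ∈ iv n T, if ∃ j ≤ n, lam ≤ hsn (Rm Mx o x1 s n j (2 ^ j * ix j x) (y + -1 * 2 ^ j) -
        Rm Mx o x1 s n j (2 ^ j * ix j x) y) then lam else 0) := by
    rw [card_eq_sum_ones]
    push_cast
    rw [sum_mul, sum_filter, ← sum_add_distrib, ← sum_add_distrib]
    refine sum_le_sum fun x hx => ?_
    have nn : ∀ p : Prop, 0 ≤ (if p then lam else 0) := fun p => by
      split_ifs
      · exact hlam0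
      · exact le_rfl
    split_ifs with h hA hB hC hC hB hC hC <;> try linarith [hlam0]
    all_goals
      exfalso
      obtain ⟨j, hj, p, hp, hk⟩ := h
      have e0 : ∀ p', Rm Mx o x1 s n j (2 ^ j * ix j x) p' = Rm Mx o x1 s n j x p' := fun p' =>
        Rm_ix0 (by rw [ix_two']) p'
      have a0 : hsn (Rm Mx o x1 s n j x y) < lam := by
        by_contra hc
        exact hA ⟨j, hj, by simp only [hP0]; rw [e0]; exact not_lt.1 hc⟩
      have a1 : hsn (Rm Mx o x1 s n j x (y + 1 * 2 ^ j) - Rm Mx o x1 s n j x y) < lam := by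
        by_contra hc
        exact hB ⟨j, hj, by rw [e0, e0]; exact not_lt.1 hc⟩
      have a2 : hsn (Rm Mx o x1 s n j x (y + -1 * 2 ^ j) - Rm Mx o x1 s n j x y) < lam := by
        by_contra hc
        exact hC ⟨j, hj, by rw [e0, e0]; exact not_lt.1 hc⟩
      rw [Hs_eq] at hk
      rcases hp with rfl | rfl | rfl
      · rw [hlam] at a0
        nlinarith [sq_nonneg κ]
      · have h8 := hsn_add_le (Rm Mx o x1 s n j x (y + 1 * 2 ^ j) - Rm Mx o x1 s n j x y)
          (Rm Mx o x1 s n j x y)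
        rw [sub_add_cancel, one_mul] at h8
        rw [one_mul] at a1
        rw [hlam] at a0 a1
        nlinarith [sq_nonneg κ]
      · have h8 := hsn_add_le (Rm Mx o x1 s n j x (y + -1 * 2 ^ j) - Rm Mx o x1 s n j x y)
          (Rm Mx o x1 s n j x y)
        rw [sub_add_cancel] at h8
        have e9 : y + -1 * 2 ^ j = y - 2 ^ j := by ring
        rw [e9] at h8 a2
        rw [hlam] at a0 a2
        nlinarith [sq_nonneg κ]
  have h9 := key.trans (add_le_add m0 (add_le_add m1 m2))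
  rw [hlam] at h9
  linarith

/-- **The maximal inequality over the three cells, by the top trace.** -/
theorem prob_nb_tr (hs1 : ∀ k a b, |s k a b| ≤ 1) (ho : o = 1 ∨ o = -1) (T y : ℤ) (κ : ℝ) {l : ℝ}
    {G K : ℕ → ℤ → Matrix ι ι ℝ} (h : H420.Tr l n G K)
    (hM : ∀ k m a, Mx k m *ᵥ a = H483.mT l K k m a) :
    (((iv n T).filter fun x0 => ∃ j ≤ n, ∃ p, nbx y j p ∧
        κ ^ 2 ≤ 4 * Hs Mx o x1 s n j x0 p).card : ℝ) * κ ^ 2 ≤
      144 * (2 ^ n * ((2 * l)⁻¹ * ∑ R ∈ wn n T x1 (ix n y), (G n R).trace)) := by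
  refine (prob_nb (Mx := Mx) (x1 := x1) hs1 ho T y κ).trans ?_
  refine mul_le_mul_of_nonneg_left ?_ (by norm_num)
  rw [sum_comm]
  refine (sum_le_sum fun a _ => H876.En_sumQ (T := T) (x1 := x1) (M3 := ix n y) h hM
    (Pi.single a 1)).trans (le_of_eq ?_)
  rw [← mul_sum, ← mul_sum, sum_comm]
  congr 2
  refine sum_congr rfl fun R _ => ?_
  rw [Matrix.trace]
  refine sum_congr rfl fun a _ => ?_
  rw [mulVec_single_one, single_dotProduct, one_mul, col_apply, diag_apply]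

end slot

end

end Vale.Agent.P141.H722
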